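import Vale.Agent.P092.H465.Rk.Red
import Vale.Agent.P092.H45.Rk.Ker

/-!
P092, project RANK-ALL (helper465): the rank theorems for the groups `TG`, `SG`.
-/

set_option linter.all false

open MeasureTheory Filter Topology Set

namespace Vale.Agent.P092.H465.Rk

open Vale.Agent.P092.H160 Vale.Agent.P092.H553 Vale.Agent.P092.H432
open Vale.Agent.P092.H515 (Src Tgt)
open Vale.Agent.P092.H515.St (IsLattice DiscIn LatIn NoEmb)

/-- The reduction for lattices of `F`. -/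
theorem SG.arep {F : Type} [Group F] [TopologicalSpace F] {s : ℕ} (h : SG F s) {Λ₀ : Subgroup F}
    (hΛ : IsLattice Λ₀) {Γ ι : Type} [Group Γ] [Fintype ι] {t : ℝ}
    {R : Λ₀ → (Ell2 (Γ × ι) →L[ℂ] Ell2 (Γ × ι))} (hR : ARep t R) :
    ∃ (M : Type) (_ : Group M) (_ : TopologicalSpace M) (Λ₁ : Subgroup M) (t' : ℝ)
      (R' : Λ₁ → (Ell2 (Γ × ι) →L[ℂ] Ell2 (Γ × ι))), Src M s ∧ H515.IsLattice Λ₁ ∧ ARep t' R' := by
  obtain ⟨h0, G, M, i1, i2, i3, i4, f, φ, h1, h2, h3, h4, h5, h6, h7, h8⟩ := h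
  haveI := hΛ.disc
  have hk : (((f.comp Λ₀.subtype).ker : Subgroup Λ₀) : Set Λ₀).Finite := by
    have h9 := H188.LatP.fin_inter Λ₀ (h5.isCompact_preimage (isCompact_singleton (x := (1 : G))))
    refine Set.Finite.of_finite_image (f := fun x : Λ₀ => (x : F)) (h9.subset ?_)
      fun a _ b _ hab => Subtype.ext hab
    rintro _ ⟨x, hx, rfl⟩
    exact ⟨x.2, hx⟩
  obtain ⟨t', R', hR'⟩ := H45.Rk.arep_ker hR (f.comp Λ₀.subtype) hk
  have h10 : IsLattice (f.comp Λ₀.subtype).range := by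
    rw [MonoidHom.range_comp, Subgroup.range_subtype]
    exact H259.Fk.lat_proper f h5 h6 hΛ
  haveI := h8.top
  have h11 : H515.IsLattice ((f.comp Λ₀.subtype).range.comap φ) :=
    VR.lat_comap φ h7.injective h7.continuous h7.isOpenMap _ ⟨h10.disc, h10.covol⟩
  refine ⟨M, i3, i4, (f.comp Λ₀.subtype).range.comap φ, t', _, h8, h11, H377.arep_comp hR'
    ((φ.comp ((f.comp Λ₀.subtype).range.comap φ).subtype).codRestrict
      (f.comp Λ₀.subtype).range fun x => x.2) fun a b hab => ?_⟩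
  exact Subtype.ext (h7.injective (congrArg Subtype.val hab))

/-- **The sharp rank theorem**, general form. -/
theorem sharp_gen {E F : Type} [Group E] [TopologicalSpace E] [Group F] [TopologicalSpace F]
    {r s : ℕ} (hE : TG E r) (hF : SG F s) (hrs : r < s) {Γ Λ : Type} [Group Γ] [Group Λ]
    (hΓ : DiscIn E Γ) (hΛ : LatIn F Λ) : NoEmb Γ Λ := by
  obtain ⟨Γ₀, i, hd, hi, hfi⟩ := hΓ
  obtain ⟨Λ₀, j, hl, hj⟩ := hΛ
  obtain ⟨Γ₁, g1, N, g2, g3, φ, i₁, h1, h2, h3, h4⟩ := hE.red hd i hi hfi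
  refine H515.noEmb_of fun ι _ t R hR => ?_
  obtain ⟨M, m1, m2, Λ₁, t', R', h5, h6, h7⟩ := hF.arep hl (H377.arep_comp hR j hj)
  haveI := h4
  obtain ⟨κ, _, t₁, R₁, h8⟩ := H377.arep_finiteIndex i₁ h7 h3
  exact H515.not_arep_gen h5 h1 hrs h6 φ h2 h8

/-- **The rank theorem**, general form. -/
theorem rank_gen {E : Type} [Group E] [TopologicalSpace E] {r : ℕ} (hE : TG E r) {Γ Λ : Type}
    [Group Γ] [Group Λ] (hΓ : DiscIn E Γ) (hΛ : H124.St.CommNA r Λ) : NoEmb Γ Λ := by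
  obtain ⟨Γ₀, i, hd, hi, hfi⟩ := hΓ
  obtain ⟨Γ₁, g1, N, g2, g3, φ, i₁, h1, h2, h3, h4⟩ := hE.red hd i hi hfi
  exact H515.noEmb_of fun ι _ t R => H124.no_arep_tgt h1 φ h2 i₁ h3 h4 hΛ ι t R

end Vale.Agent.P092.H465.Rk
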