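import Vale.Agent.P092.UN.StR
import Vale.Agent.P092.H465.Rk.Gen

/-!
P092, project RANK-ALL (helper465): the rank theorems for the class `RkL`.
-/

set_option linter.all false

open MeasureTheory Filter Topology Set

namespace Vale.Agent.P092.H465.Rk

open Matrix
open Vale.Agent.P092.H303 (FormGroup hyp Idx)
open Vale.Agent.P092.H515 (Src Tgt)
open Vale.Agent.P092.H515.St (LocK form)
open Vale.Agent.P092.UN (RkL IsLieR)

/-- The input on groups of automorphisms of simple Lie algebras. -/
def LieIn : Prop :=
  ∀ (k : Type) [NontriviallyNormedField k] [ProperSpace k] [CharZero k], LocK k →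
    ∀ (G : Type) [Group G] [TopologicalSpace G] (r : ℕ), IsLieR k G r → TG G r ∧ SG G r

theorem sg_of_src {G : Type} [Group G] [TopologicalSpace G] {s : ℕ} (h : Src G s) : SG G s :=
  sg_of_open h.top h.t2 (MonoidHom.id G) IsOpenEmbedding.id (by
    have h8 : (MonoidHom.id G).range = ⊤ := MonoidHom.range_eq_top.2 Function.surjective_id
    rw [h8]
    infer_instance) h

theorem rk_tg (hL : LieIn) {P : ℕ → Prop} {G : Type} [hG : Group G] [hT : TopologicalSpace G]
    {r : ℕ} (h : RkL P G r) : TG G r := by
  induction h with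
  | sl k hk n => exact tg_of_tgt (H933.tgt_sl_loc (H515.locK hk) n) inferInstance
  | isom k hk σ hσ hn ε hε hσε ι J₀ hJ q hq G hG =>
    obtain rfl : G = FormGroup σ (hyp q ε J₀) := by
      ext g
      rw [hG]
      rfl
    have hε0 : ε ≠ 0 := fun h => by rw [h, mul_zero] at hε; exact zero_ne_one hε
    exact tg_of_tgt (H515.tgt_formGroup (H515.locK hk) hn hσ hε0 hJ) inferInstance
  | lie k hk G r h => exact (hL k hk G r h).1
  | prod G H r s _ _ h1 h2 => exact h1.prod h2
  | ext E G r f hf hr _ h => exact h.ext f hf inferInstance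

theorem rk_sg (hL : LieIn) {P : ℕ → Prop} (hP : ∀ q, P q → q ≠ 1) {G : Type} [hG : Group G]
    [hT : TopologicalSpace G] {r : ℕ} (h : RkL P G r) : SG G r := by
  induction h with
  | sl k hk n => exact sg_of_src (H515.src_sl k n)
  | isom k hk σ hσ hn ε hε hσε ι J₀ hJ q hq G hG =>
    obtain rfl : G = FormGroup σ (hyp q ε J₀) := by
      ext g
      rw [hG]
      rfl
    exact sg_of_src (H515.src_formGroup hσ hn hε hσε (hP q hq))
  | lie k hk G r h => exact (hL k hk G r h).2
  | prod G H r s _ _ h1 h2 => exact h1.prod h2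
  | ext E G r f hf hr _ h => exact h.ext f hf hr inferInstance

end Vale.Agent.P092.H465.Rk
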