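import Vale.Agent.P092.UN.StR
import Vale.Agent.P092.H45.Rp.A
import Vale.Agent.P092.H213.Nd.Sc
import Vale.Agent.P092.H35.Rp.Trans
import Mathlib.LinearAlgebra.Complex.Module
import Mathlib.Analysis.Complex.Basic

/-!
P092, project RANK-ALL (helper465), T4: the split rank of a complex Lie algebra is the split rank of the
underlying real Lie algebra; isomorphic topological fields.
-/

set_option linter.all false

open Module LieAlgebra Topology

namespace Vale.Agent.P092.H465.Rk

open Vale.Agent.P092.UN (Split IsLieR)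
open Vale.Agent.P092.H45.Rp (CS Dg Rat joint exists_basis)
open Vale.Agent.P092.H35.Rp (IsExp IsLie)

section cplx

variable {L : Type} [LieRing L] [LieAlgebra ℂ L] [LieAlgebra ℝ L] [IsScalarTower ℝ ℂ L]

theorem coe_smul' (c : ℝ) (y : L) : (c : ℂ) • y = c • y := algebraMap_smul ℂ c y

/-- rational tori over `ℂ` are split over `ℝ` -/
theorem split_real_of_cs [Module.Finite ℂ L] {r : ℕ} (h : CS ℂ (L := L) r) : Split ℝ L r := by
  obtain ⟨s, hc, hd, hr, hli⟩ := h
  obtain ⟨b, l, hb⟩ := exists_basis rfl s hc hd hr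
  refine ⟨s, hli.restrict_scalars (by
    intro a b hab
    simpa using hab), hc, fun i => ⟨_, (Complex.basisOneI.smulTower b).reindex finProdFinEquiv,
      fun j => ⟨(l (finProdFinEquiv.symm j).2 i : ℝ), ?_⟩⟩⟩
  rw [Basis.reindex_apply, Basis.smulTower_apply, lie_smul, hb, smul_comm]
  rw [← coe_smul', Complex.ofReal_ratCast]

/-- real split tori are complex split tori -/
theorem split_cplx [Module.Finite ℂ L] (hs : LieAlgebra.IsSimple ℂ L) {m : ℕ} (h : Split ℝ L m) :
    Split ℂ L m := by
  obtain ⟨x, hli, hc, hd⟩ := h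
  haveI : Module.Finite ℝ L := Module.Finite.trans ℂ L
  have hdg : ∀ i, Dg ℝ (x i) := fun i => by
    obtain ⟨n, b, hb⟩ := hd i
    exact H45.Rp.dg_of_basis b hb
  have hj := joint (k := ℝ) (fun i => ad ℝ L (x i)) (fun i j => by
    refine LinearMap.ext fun y => ?_
    change ⁅x i, ⁅x j, y⁆⁆ = ⁅x j, ⁅x i, y⁆⁆
    rw [leibniz_lie (x i) (x j) y, hc i j, zero_lie, zero_add]) hdg
  -- real combinations whose real and imaginary parts cancel
  have key : ∀ a b : Fin m → ℝ, (∑ i, a i • x i) + Complex.I • (∑ i, b i • x i) = 0 →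
      (∑ i, a i • x i) = 0 ∧ (∑ i, b i • x i) = 0 := by
    intro a b hab
    have h1 : ∀ y ∈ {y : L | ∃ l : Fin m → ℝ, ∀ i, (ad ℝ L (x i)) y = l i • y},
        ⁅∑ i, a i • x i, y⁆ = 0 ∧ ⁅∑ i, b i • x i, y⁆ = 0 := by
      rintro y ⟨l, hl⟩
      have hl' : ∀ i, ⁅x i, y⁆ = l i • y := hl
      have h2 : ∀ c : Fin m → ℝ, ⁅∑ i, c i • x i, y⁆ = (∑ i, c i * l i : ℝ) • y := by
        intro c
        rw [sum_lie, Finset.sum_smul]
        refine Finset.sum_congr rfl fun i _ => ?_
        rw [smul_lie, hl', smul_smul]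
      have h3 : ⁅(∑ i, a i • x i) + Complex.I • (∑ i, b i • x i), y⁆ = 0 := by
        rw [hab, zero_lie]
      rw [add_lie, smul_lie, h2, h2] at h3
      have h4 : (((∑ i, a i * l i : ℝ) : ℂ) + Complex.I * ((∑ i, b i * l i : ℝ) : ℂ)) • y = 0 := by
        rw [add_smul, mul_smul, coe_smul', coe_smul']
        exact h3
      rcases smul_eq_zero.1 h4 with h5 | h5
      · have h6 := congrArg Complex.re h5
        have h7 := congrArg Complex.im h5
        simp at h6 h7
        constructor
        · rw [h2, h6, zero_smul]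
        · rw [h2, h7, zero_smul]
      · rw [h5, lie_zero, lie_zero]
        exact ⟨rfl, rfl⟩
    have h2 : ∀ y : L, ⁅∑ i, a i • x i, y⁆ = 0 ∧ ⁅∑ i, b i • x i, y⁆ = 0 := by
      intro y
      have hy : y ∈ Submodule.span ℝ {y : L | ∃ l : Fin m → ℝ, ∀ i, (ad ℝ L (x i)) y = l i • y} :=
        hj trivial
      induction hy using Submodule.span_induction with
      | mem y hy => exact h1 y hy
      | zero => rw [lie_zero, lie_zero]; exact ⟨rfl, rfl⟩
      | add y z _ _ h h' => rw [lie_add, lie_add, h.1, h.2, h'.1, h'.2, add_zero]; exact ⟨rfl, rfl⟩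
      | smul c y _ h => rw [lie_smul, lie_smul, h.1, h.2, smul_zero]; exact ⟨rfl, rfl⟩
    constructor
    · refine H213.Nd.center_eq (k := ℂ) hs fun z => ?_
      rw [← lie_skew, (h2 z).1, neg_zero]
    · refine H213.Nd.center_eq (k := ℂ) hs fun z => ?_
      rw [← lie_skew, (h2 z).2, neg_zero]
  refine ⟨x, ?_, hc, fun i => ?_⟩
  · rw [Fintype.linearIndependent_iff] at hli ⊢
    intro g hg
    have h1 : (∑ i, (g i).re • x i) + Complex.I • (∑ i, (g i).im • x i) = 0 := by
      rw [← hg, Finset.smul_sum, ← Finset.sum_add_distrib]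
      refine Finset.sum_congr rfl fun i _ => ?_
      conv_rhs => rw [← Complex.re_add_im (g i)]
      rw [add_smul, mul_comm, mul_smul, coe_smul', coe_smul']
    obtain ⟨h2, h3⟩ := key _ _ h1
    intro i
    exact Complex.ext (hli _ h2 i) (hli _ h3 i)
  · obtain ⟨n, b, hb⟩ := hd i
    have hsp : ⊤ ≤ Submodule.span ℂ (Set.range b) := by
      intro y _
      have h1 : y ∈ Submodule.span ℝ (Set.range b) := by
        rw [b.span_eq]
        trivial
      exact Submodule.span_le_restrictScalars ℝ ℂ (Set.range b) h1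
    let b0 := Basis.ofSpan hsp
    haveI := FiniteDimensional.fintypeBasisIndex b0
    refine ⟨_, b0.reindex (Fintype.equivFin _), fun j => ?_⟩
    have h3 : b0.reindex (Fintype.equivFin _) j ∈ Set.range b := by
      refine Basis.ofSpan_subset hsp ⟨(Fintype.equivFin _).symm j, ?_⟩
      rw [Basis.reindex_apply]
    obtain ⟨q, hq⟩ := h3
    obtain ⟨c, hcq⟩ := hb q
    refine ⟨(c : ℂ), ?_⟩
    rw [← hq, hcq, coe_smul']

end cplx

theorem isLieR_trans {k k' G : Type} [Field k] [TopologicalSpace k] [Field k'] [TopologicalSpace k']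
    [Group G] [TopologicalSpace G] {r : ℕ} (e : k ≃+* k') (he : Continuous e)
    (he' : Continuous e.symm) (h : IsLieR k G r) : IsLieR k' G r := by
  obtain ⟨L, i1, i2, n, b, ρ, hs, ⟨x, hx, ψ, hψ⟩, hl, hf, hemb, hsp, hsp'⟩ := h
  letI m' : Module k' L := Module.compHom L (e.symm : k' →+* k)
  have hsm : ∀ (c : k') (x : L), c • x = e.symm c • x := fun c x => rfl
  have hsm' : ∀ (c : k) (x : L), e c • x = c • x := fun c x => by
    rw [hsm, RingEquiv.symm_apply_apply]
  letI a' : LieAlgebra k' L := { lie_smul := fun c x y => by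
                                  rw [hsm, hsm]
                                  exact lie_smul (e.symm c) x y }
  let b' : Basis (Fin n) k' L := b.mapCoeffs e hsm'
  have hb' : ∀ i, b' i = b i := fun i => b.mapCoeffs_apply e hsm' i
  have hrep : ∀ (x : L) (i : Fin n), b'.repr x i = e (b.repr x i) := by
    intro x i
    have h1 : x = ∑ j, e (b.repr x j) • b' j := by
      conv_lhs => rw [← b.sum_repr x]
      refine Finset.sum_congr rfl fun j _ => ?_
      rw [hb', hsm']
    conv_lhs => rw [h1]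
    exact congrFun (b'.repr_sum_self fun j => e (b.repr x j)) i
  let ρ' : G →* Module.End k' L :=
    { toFun := fun g =>
        { toFun := ρ g
          map_add' := fun x y => map_add (ρ g) x y
          map_smul' := fun c x => by
            rw [hsm, map_smul]
            rfl }
      map_one' := by
        ext x
        show ρ 1 x = x
        rw [map_one]; rfl
      map_mul' := fun g g' => by
        ext x
        show ρ (g * g') x = ρ g (ρ g' x)
        rw [map_mul]; rfl }
  have hρ' : ∀ g x, ρ' g x = ρ g x := fun g x => rfl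
  have hexp : ∀ (x : L) (ψ : L → L), IsExp k x ψ ↔ IsExp k' x ψ := by
    intro x ψ
    have h0 : ∀ (m : ℕ) (y : L),
        ∑ i ∈ Finset.range m, ((i.factorial : k')⁻¹) • (fun z : L => ⁅x, z⁆)^[i] y =
          ∑ i ∈ Finset.range m, ((i.factorial : k)⁻¹) • (fun z : L => ⁅x, z⁆)^[i] y := by
      intro m y
      refine Finset.sum_congr rfl fun i _ => ?_
      rw [hsm, map_inv₀, map_natCast]
    constructor
    · rintro ⟨m, h1, h2⟩
      exact ⟨m, h1, fun y => by rw [h0, h2]⟩
    · rintro ⟨m, h1, h2⟩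
      exact ⟨m, h1, fun y => by rw [← h0, h2]⟩
  refine ⟨L, i1, a', n, b', ρ', ⟨?_, hs.non_abelian⟩, ⟨x, hx, ψ, (hexp x ψ).1 hψ⟩,
    fun g x y => hl g x y, fun x ψ hψ => hf x ψ ((hexp x ψ).2 hψ), ?_, ?_, ?_⟩
  · intro I
    let J : LieIdeal k L :=
      { carrier := I
        add_mem' := fun {x y} hx hy => I.add_mem hx hy
        zero_mem' := I.zero_mem
        smul_mem' := fun c x hx => by
          have := I.smul_mem (e c) hx
          rwa [hsm'] at this
        lie_mem := fun {x m} hm => I.lie_mem hm }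
    rcases hs.eq_bot_or_eq_top J with h1 | h1
    · left
      rw [LieSubmodule.eq_bot_iff]
      intro x hx
      exact (LieSubmodule.eq_bot_iff J).1 h1 x hx
    · right
      rw [eq_top_iff]
      intro x _
      have : x ∈ J := by rw [h1]; exact LieSubmodule.mem_top x
      exact this
  · have e1 : (fun g (i j : Fin n) => b'.repr (ρ' g (b' j)) i) =
        (fun (M : Fin n → Fin n → k) i j => e (M i j)) ∘
          fun g (i j : Fin n) => b.repr (ρ g (b j)) i := by
      funext g i j
      show _ = e (b.repr (ρ g (b j)) i)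
      rw [hrep, hρ', hb']
    rw [e1]
    let H : k ≃ₜ k' := { toEquiv := e.toEquiv, continuous_toFun := he, continuous_invFun := he' }
    have h2 : Topology.IsEmbedding (fun (M : Fin n → Fin n → k) i j => e (M i j)) :=
      (Homeomorph.piCongrRight fun _ : Fin n => Homeomorph.piCongrRight fun _ : Fin n => H).isEmbedding
    exact h2.comp hemb
  · obtain ⟨s, h1, h2, h3⟩ := hsp
    refine ⟨s, ?_, h2, fun i => ?_⟩
    · rw [Fintype.linearIndependent_iff] at h1 ⊢
      intro g hg i
      have h4 := h1 (fun i => e.symm (g i)) hg i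
      exact (map_eq_zero e.symm).1 h4
    · obtain ⟨m, c, hc⟩ := h3 i
      refine ⟨m, c.mapCoeffs e hsm', fun j => ?_⟩
      obtain ⟨q, hq⟩ := hc j
      refine ⟨e q, ?_⟩
      rw [c.mapCoeffs_apply e hsm' j, hq, hsm']
  · intro h0
    apply hsp'
    obtain ⟨s, h1, h2, h3⟩ := h0
    refine ⟨s, ?_, h2, fun i => ?_⟩
    · rw [Fintype.linearIndependent_iff] at h1 ⊢
      intro g hg i
      have h4 := h1 (fun i => e (g i)) (by
        rw [← hg]
        exact Finset.sum_congr rfl fun i _ => hsm' _ _) i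
      exact (map_eq_zero e).1 h4
    · obtain ⟨m, c, hc⟩ := h3 i
      refine ⟨m, c.mapCoeffs e.symm fun q x => rfl, fun j => ?_⟩
      obtain ⟨q, hq⟩ := hc j
      refine ⟨e.symm q, ?_⟩
      rw [c.mapCoeffs_apply e.symm (fun q x => rfl) j, hq]
      rfl

theorem isLieR_restrict {G : Type} [Group G] [TopologicalSpace G] {r : ℕ}
    (hcs : ∀ (L : Type) [LieRing L] [LieAlgebra ℂ L] [Module.Finite ℂ L], LieAlgebra.IsSimple ℂ L →
      ∀ m, Split ℂ L m → CS ℂ (L := L) m) (h : IsLieR ℂ G r) : IsLieR ℝ G r := by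
  obtain ⟨L, i1, i2, n, b, ρ, hs, ⟨x, hx, ψ, hψ⟩, hl, hf, he, hsp, hsp'⟩ := h
  letI mK : Module ℝ L := Module.compHom L (algebraMap ℝ ℂ)
  haveI : IsScalarTower ℝ ℂ L := ⟨fun q a v => by
    show (q • a) • v = (algebraMap ℝ ℂ q) • (a • v)
    rw [Algebra.smul_def, mul_smul]⟩
  letI lK : LieAlgebra ℝ L :=
    { mK with
      lie_smul := fun q x y => by
        show ⁅x, (algebraMap ℝ ℂ q) • y⁆ = (algebraMap ℝ ℂ q) • ⁅x, y⁆
        rw [lie_smul] }
  set e := Module.finBasis ℝ ℂ with he'
  set b' : Basis (Fin (finrank ℝ ℂ) × Fin n) ℝ L := e.smulTower b with hb'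
  set ρ' : G →* Module.End ℝ L :=
    { toFun := fun g => (ρ g).restrictScalars ℝ
      map_one' := by rw [map_one]; rfl
      map_mul' := fun g h => by rw [map_mul]; rfl } with hρ'
  have hρa : ∀ g (v : L), ρ' g v = ρ g v := fun g v => rfl
  refine ⟨L, i1, lK, finrank ℝ ℂ * n, b'.reindex finProdFinEquiv, ρ', H213.Nd.simple_restrict ℝ hs,
    ⟨x, hx, ψ, (H213.Nd.isExp_restrict (K := ℝ) (k := ℂ) x ψ).2 hψ⟩, hl, fun y φ hφ => ?_, ?_, ?_, ?_⟩
  · exact hf y φ ((H213.Nd.isExp_restrict (K := ℝ) (k := ℂ) y φ).1 hφ)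
  · let Ψ : (Fin n → Fin n → ℂ) →ₗ[ℝ]
        (Fin (finrank ℝ ℂ * n) → Fin (finrank ℝ ℂ * n) → ℝ) :=
      { toFun := fun M I J => e.repr (e (finProdFinEquiv.symm J).1 *
          M (finProdFinEquiv.symm I).2 (finProdFinEquiv.symm J).2) (finProdFinEquiv.symm I).1
        map_add' := fun M N => by
          funext I J
          simp only [Pi.add_apply, mul_add, map_add, Finsupp.add_apply]
        map_smul' := fun c M => by
          funext I J
          simp only [Pi.smul_apply, RingHom.id_apply, mul_smul_comm, map_smul,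
            Finsupp.smul_apply] }
    have hker : LinearMap.ker Ψ = ⊥ := by
      rw [LinearMap.ker_eq_bot']
      intro M hM
      funext i j
      rw [Pi.zero_apply, Pi.zero_apply]
      have h1 : ∀ a c, e.repr (e c * M i j) a = 0 := by
        intro a c
        have := congrFun (congrFun hM (finProdFinEquiv (a, i))) (finProdFinEquiv (c, j))
        simp only [Ψ, LinearMap.coe_mk, AddHom.coe_mk, Equiv.symm_apply_apply,
          Pi.zero_apply] at this
        exact this
      have h2 : ∀ c, e c * M i j = 0 := fun c => by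
        apply e.repr.injective
        rw [map_zero]
        exact Finsupp.ext fun a => h1 a c
      by_contra hne
      have h3 : ∀ c, e c = 0 := fun c => (mul_eq_zero.1 (h2 c)).resolve_right hne
      have hpos : 0 < finrank ℝ ℂ := finrank_pos
      exact e.ne_zero ⟨0, hpos⟩ (h3 _)
    have hΨ : IsClosedEmbedding Ψ := LinearMap.isClosedEmbedding_of_injective hker
    have h1 := hΨ.isEmbedding.comp he
    have e1 : (fun g (I J : Fin (finrank ℝ ℂ * n)) =>
        (b'.reindex finProdFinEquiv).repr (ρ' g ((b'.reindex finProdFinEquiv) J)) I) =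
        ⇑Ψ ∘ fun g (i j : Fin n) => b.repr (ρ g (b j)) i := by
      funext g I J
      rw [Basis.repr_reindex_apply, Basis.reindex_apply, hb', Basis.smulTower_apply,
        Basis.smulTower_repr, hρa]
      show _ = e.repr (e (finProdFinEquiv.symm J).1 *
        (b.repr (ρ g (b (finProdFinEquiv.symm J).2)) (finProdFinEquiv.symm I).2)) _
      rw [map_smul, map_smul, Finsupp.smul_apply, smul_eq_mul]
    rw [e1]
    exact h1
  · haveI : Module.Finite ℂ L := Module.Finite.of_basis b
    exact split_real_of_cs (hcs L hs r hsp)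
  · intro h0
    haveI : Module.Finite ℂ L := Module.Finite.of_basis b
    exact hsp' (split_cplx hs h0)

theorem isLieR_norm {k k' G : Type} [NontriviallyNormedField k] [NontriviallyNormedField k']
    [Group G] [TopologicalSpace G] {r : ℕ} (e : k ≃+* k') (he : ∀ x, ‖e x‖ = ‖x‖)
    (h : IsLieR k G r) : IsLieR k' G r :=
  isLieR_trans e (AddMonoidHomClass.isometry_of_norm e he).continuous
    (AddMonoidHomClass.isometry_of_norm e.symm fun x => by
      rw [← he (e.symm x), e.apply_symm_apply]).continuous h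

/-- **T4**: the two kinds of local fields. -/
theorem isLieR_cases {k G : Type} [NontriviallyNormedField k] [Group G] [TopologicalSpace G] {r : ℕ}
    (hcs : ∀ (L : Type) [LieRing L] [LieAlgebra ℂ L] [Module.Finite ℂ L], LieAlgebra.IsSimple ℂ L →
      ∀ m, Split ℂ L m → CS ℂ (L := L) m) (hk : H515.St.LocK k) (h : IsLieR k G r) :
    IsLieR ℝ G r ∨ IsUltrametricDist k := by
  rcases hk with ⟨φ, hφ⟩ | ⟨φ, hφ⟩ | hu
  · exact Or.inl (isLieR_norm φ hφ h)
  · exact Or.inl (isLieR_restrict hcs (isLieR_norm φ hφ h))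
  · exact Or.inr hu

/-- forget the rank -/
theorem IsLieR.isLie {k G : Type} [Field k] [TopologicalSpace k] [Group G] [TopologicalSpace G]
    {r : ℕ} (h : IsLieR k G r) : IsLie k G := by
  obtain ⟨L, i1, i2, n, b, ρ, h1, h2, h3, h4, h5, -, -⟩ := h
  exact ⟨L, i1, i2, n, b, ρ, h1, h2, h3, h4, h5⟩

end Vale.Agent.P092.H465.Rk
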