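import Vale.Agent.P092.H465.Rk.Cls
import Vale.Agent.P092.H465.Rk.Cx
import Vale.Agent.P092.H35.Rp.Qfp

/-!
P092, project RANK-ALL (helper465), (F): the input `LieIn` from the pieces over one field.
-/

set_option linter.all false

open Module LieAlgebra Topology

namespace Vale.Agent.P092.H465.Rk

open Vale.Agent.P092.UN (Split IsLieR)
open Vale.Agent.P092.H35.Rp (IsExp IsLie)

/-- the class of the statement, in the letters of the proof, with `L` visible -/
theorem ra_of {k : Type} [NontriviallyNormedField k] [CharZero k] {G : Type} [Group G]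
    [TopologicalSpace G] {L : Type} [LieRing L] [LieAlgebra k L] {n : ℕ} {b : Basis (Fin n) k L}
    {ρ : G →* Module.End k L} (h1 : LieAlgebra.IsSimple k L)
    (h0 : ∃ x : L, x ≠ 0 ∧ ∃ ψ, IsExp k x ψ) (h2 : ∀ g (x y : L), ρ g ⁅x, y⁆ = ⁅ρ g x, ρ g y⁆)
    (h3 : ∀ x ψ, IsExp k x ψ → ∃ g, ⇑(ρ g) = ψ)
    (h4 : IsEmbedding (fun g (i j : Fin n) => b.repr (ρ g (b j)) i)) : H720.Rp.RA b ρ := by
  obtain ⟨x, hx, ψ, hψ⟩ := h0
  haveI : Module.Finite k L := Module.Finite.of_basis b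
  refine H35.Rp.RA.conv ⟨h1, ⟨x, hx, ((H35.Rp.isExp_iff x ψ).1 hψ).1⟩, ?_, h2, fun y hy => ?_⟩
  · have e : (fun g => LinearMap.toMatrix b b (ρ g)) =
        fun g => (fun (i j : Fin n) => b.repr (ρ g (b j)) i) := by
      funext g i j
      exact LinearMap.toMatrix_apply b b _ i j
    show IsEmbedding fun g => (LinearMap.toMatrix b b (ρ g) : Fin n → Fin n → k)
    exact e ▸ h4
  · obtain ⟨g, hg⟩ := h3 y _ ((H35.Rp.isExp_iff y _).2 ⟨hy, rfl⟩)
    exact ⟨g, LinearMap.ext fun z => congrFun hg z⟩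

/-- `IsLie` with an upper bound for the split rank. -/
def IsLieU (k G : Type) [Field k] [TopologicalSpace k] [Group G] [TopologicalSpace G] (r : ℕ) :
    Prop :=
  ∃ (L : Type) (_ : LieRing L) (_ : LieAlgebra k L) (n : ℕ) (b : Module.Basis (Fin n) k L)
    (ρ : G →* Module.End k L), LieAlgebra.IsSimple k L ∧ (∃ x : L, x ≠ 0 ∧ ∃ ψ, IsExp k x ψ) ∧
    (∀ g (x y : L), ρ g ⁅x, y⁆ = ⁅ρ g x, ρ g y⁆) ∧ (∀ x ψ, IsExp k x ψ → ∃ g, ⇑(ρ g) = ψ) ∧
    Topology.IsEmbedding (fun g (i j : Fin n) => b.repr (ρ g (b j)) i) ∧ ¬ Split k L (r + 1)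

theorem isLieU_of {k G : Type} [Field k] [TopologicalSpace k] [Group G] [TopologicalSpace G]
    {r : ℕ} (h : IsLieR k G r) : IsLieU k G r := by
  obtain ⟨L, i1, i2, n, b, ρ, h1, h2, h3, h4, h5, -, h6⟩ := h
  exact ⟨L, i1, i2, n, b, ρ, h1, h2, h3, h4, h5, h6⟩

theorem isLieU_restrict {G : Type} [Group G] [TopologicalSpace G] {r : ℕ} (h : IsLieR ℂ G r) :
    IsLieU ℝ G r := by
  obtain ⟨L, i1, i2, n, b, ρ, hs, ⟨x, hx, ψ, hψ⟩, hl, hf, he, -, hsp'⟩ := h
  letI mK : Module ℝ L := Module.compHom L (algebraMap ℝ ℂ)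
  haveI : IsScalarTower ℝ ℂ L := ⟨fun q a v => by
    show (q • a) • v = (algebraMap ℝ ℂ q) • (a • v)
    rw [Algebra.smul_def, mul_smul]⟩
  letI lK : LieAlgebra ℝ L :=
    { mK with
      lie_smul := fun q x y => by
        show ⁅x, (algebraMap ℝ ℂ q) • y⁆ = (algebraMap ℝ ℂ q) • ⁅x, y⁆
        rw [lie_smul] }
  set e := Module.finBasis ℝ ℂ with he'
  set b' : Basis (Fin (finrank ℝ ℂ) × Fin n) ℝ L := e.smulTower b with hb'
  set ρ' : G →* Module.End ℝ L :=
    { toFun := fun g => (ρ g).restrictScalars ℝ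
      map_one' := by rw [map_one]; rfl
      map_mul' := fun g h => by rw [map_mul]; rfl } with hρ'
  have hρa : ∀ g (v : L), ρ' g v = ρ g v := fun g v => rfl
  refine ⟨L, i1, lK, finrank ℝ ℂ * n, b'.reindex finProdFinEquiv, ρ', H213.Nd.simple_restrict ℝ hs,
    ⟨x, hx, ψ, (H213.Nd.isExp_restrict (K := ℝ) (k := ℂ) x ψ).2 hψ⟩, hl, fun y φ hφ => ?_, ?_, ?_⟩
  · exact hf y φ ((H213.Nd.isExp_restrict (K := ℝ) (k := ℂ) y φ).1 hφ)
  · let Ψ : (Fin n → Fin n → ℂ) →ₗ[ℝ]
        (Fin (finrank ℝ ℂ * n) → Fin (finrank ℝ ℂ * n) → ℝ) :=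
      { toFun := fun M I J => e.repr (e (finProdFinEquiv.symm J).1 *
          M (finProdFinEquiv.symm I).2 (finProdFinEquiv.symm J).2) (finProdFinEquiv.symm I).1
        map_add' := fun M N => by
          funext I J
          simp only [Pi.add_apply, mul_add, map_add, Finsupp.add_apply]
        map_smul' := fun c M => by
          funext I J
          simp only [Pi.smul_apply, RingHom.id_apply, mul_smul_comm, map_smul,
            Finsupp.smul_apply] }
    have hker : LinearMap.ker Ψ = ⊥ := by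
      rw [LinearMap.ker_eq_bot']
      intro M hM
      funext i j
      rw [Pi.zero_apply, Pi.zero_apply]
      have h1 : ∀ a c, e.repr (e c * M i j) a = 0 := by
        intro a c
        have := congrFun (congrFun hM (finProdFinEquiv (a, i))) (finProdFinEquiv (c, j))
        simp only [Ψ, LinearMap.coe_mk, AddHom.coe_mk, Equiv.symm_apply_apply,
          Pi.zero_apply] at this
        exact this
      have h2 : ∀ c, e c * M i j = 0 := fun c => by
        apply e.repr.injective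
        rw [map_zero]
        exact Finsupp.ext fun a => h1 a c
      by_contra hne
      have h3 : ∀ c, e c = 0 := fun c => (mul_eq_zero.1 (h2 c)).resolve_right hne
      have hpos : 0 < finrank ℝ ℂ := finrank_pos
      exact e.ne_zero ⟨0, hpos⟩ (h3 _)
    have hΨ : IsClosedEmbedding Ψ := LinearMap.isClosedEmbedding_of_injective hker
    have h1 := hΨ.isEmbedding.comp he
    have e1 : (fun g (I J : Fin (finrank ℝ ℂ * n)) =>
        (b'.reindex finProdFinEquiv).repr (ρ' g ((b'.reindex finProdFinEquiv) J)) I) =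
        ⇑Ψ ∘ fun g (i j : Fin n) => b.repr (ρ g (b j)) i := by
      funext g I J
      rw [Basis.repr_reindex_apply, Basis.reindex_apply, hb', Basis.smulTower_apply,
        Basis.smulTower_repr, hρa]
      show _ = e.repr (e (finProdFinEquiv.symm J).1 *
        (b.repr (ρ g (b (finProdFinEquiv.symm J).2)) (finProdFinEquiv.symm I).2)) _
      rw [map_smul, map_smul, Finsupp.smul_apply, smul_eq_mul]
    rw [e1]
    exact h1
  · intro h0
    haveI : Module.Finite ℂ L := Module.Finite.of_basis b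
    exact hsp' (split_cplx hs h0)

/-- the real case in the letters `IsLieU` -/
theorem tg_lieU
    (tg_real : ∀ {G : Type} [Group G] [TopologicalSpace G] {L : Type} [LieRing L] [LieAlgebra ℝ L]
      {n : ℕ} {b : Basis (Fin n) ℝ L} {ρ : G →* Module.End ℝ L}, H720.Rp.RA b ρ →
      ∃ m, Split ℝ L m ∧ TG G m)
    (split_mono : ∀ {L : Type} [LieRing L] [LieAlgebra ℝ L] {m r : ℕ}, m ≤ r → Split ℝ L r →
      Split ℝ L m)
    (tg_mono : ∀ {G : Type} [Group G] [TopologicalSpace G] {m r : ℕ}, m ≤ r → TG G m → TG G r)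
    {G : Type} [Group G] [TopologicalSpace G] {r : ℕ} (h : IsLieU ℝ G r) : TG G r := by
  obtain ⟨L, i1, i2, n, b, ρ, h1, h2, h3, h4, h5, h6⟩ := h
  obtain ⟨m, hm, ht⟩ := tg_real (ra_of h1 h2 h3 h4 h5)
  refine tg_mono ?_ ht
  by_contra hcon
  exact h6 (split_mono (by omega) hm)

/-- **(F)** -/
theorem lieIn_of
    (sg_ra : ∀ {k : Type} [NontriviallyNormedField k] [ProperSpace k] [CharZero k] {G : Type}
      [Group G] [TopologicalSpace G] {L : Type} [LieRing L] [LieAlgebra k L] {n r : ℕ}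
      {b : Basis (Fin n) k L} {ρ : G →* Module.End k L}, H720.Rp.RA b ρ → Split k L r →
      ¬ Split k L (r + 1) → SG G r)
    (tg_pad : ∀ {k : Type} [NontriviallyNormedField k] [ProperSpace k] [CharZero k]
      [IsUltrametricDist k] {G : Type} [Group G] [TopologicalSpace G] {L : Type} [LieRing L]
      [LieAlgebra k L] {n r : ℕ} {b : Basis (Fin n) k L} {ρ : G →* Module.End k L},
      H720.Rp.RA b ρ → Split k L r → ¬ Split k L (r + 1) → TG G r)
    (tg_real : ∀ {G : Type} [Group G] [TopologicalSpace G] {L : Type} [LieRing L] [LieAlgebra ℝ L]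
      {n : ℕ} {b : Basis (Fin n) ℝ L} {ρ : G →* Module.End ℝ L}, H720.Rp.RA b ρ →
      ∃ m, Split ℝ L m ∧ TG G m)
    (split_mono : ∀ {L : Type} [LieRing L] [LieAlgebra ℝ L] {m r : ℕ}, m ≤ r → Split ℝ L r →
      Split ℝ L m)
    (tg_mono : ∀ {G : Type} [Group G] [TopologicalSpace G] {m r : ℕ}, m ≤ r → TG G m → TG G r) :
    LieIn := by
  intro k _ _ _ hk G _ _ r h
  refine ⟨?_, ?_⟩
  · rcases hk with ⟨φ, hφ⟩ | ⟨φ, hφ⟩ | hu
    · exact tg_lieU tg_real split_mono tg_mono (isLieU_of (isLieR_norm φ hφ h))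
    · exact tg_lieU tg_real split_mono tg_mono (isLieU_restrict (isLieR_norm φ hφ h))
    · obtain ⟨L, i1, i2, n, b, ρ, h1, h2, h3, h4, h5, h6, h7⟩ := h
      exact tg_pad (ra_of h1 h2 h3 h4 h5) h6 h7
  · obtain ⟨L, i1, i2, n, b, ρ, h1, h2, h3, h4, h5, h6, h7⟩ := h
    exact sg_ra (ra_of h1 h2 h3 h4 h5) h6 h7

end Vale.Agent.P092.H465.Rk
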