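import Vale.Agent.P092.H944.RA2
import Vale.Agent.P092.H944.RA4
import Vale.Agent.P092.H465.Rk.LieIn
import Vale.Agent.P092.H465.Rk.Fin

/-!
P092, project RANK-ALL (helper944, helper45, helper465): the input `LieIn` holds.
-/

set_option linter.all false

namespace Vale.Agent.P092.H465.Rk

theorem lieIn : LieIn :=
  lieIn_of (fun h => H944.RA.sg_ra h) (fun h => H944.RA.tg_pad h) (fun h => H944.RA.tg_real h)
    (fun h h' => H944.RA.Split.mono h h') (fun h h' => H944.RA.TG.mono h h')

end Vale.Agent.P092.H465.Rk
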