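import Vale.Agent.P092.H515.RkFin
import Vale.Agent.P092.H259.Fk.Prop
import Vale.Agent.P092.VR.Lat

/-!
P092, project RANK-ALL (helper465): target and source groups up to finite index, open subgroups and
proper homomorphisms.
-/

set_option linter.all false

open MeasureTheory Filter Topology Set

namespace Vale.Agent.P092.H465.Rk

open Vale.Agent.P092.H515 (Src Tgt)

/-! ### Target groups -/

/-- A subgroup of finite index of `G` is a target group of rank `r`. -/
def TG (G : Type) [Group G] [TopologicalSpace G] (r : ℕ) : Prop :=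
  IsTopologicalGroup G ∧ ∃ N : Subgroup G, N.FiniteIndex ∧ Tgt N r

section tgt
variable {E G H : Type} [Group E] [TopologicalSpace E] [Group G] [TopologicalSpace G] [Group H]
  [TopologicalSpace H] {r s : ℕ}

theorem isCompact_sub {N : Subgroup G} {K : Set N} (h : IsCompact (Subtype.val '' K)) :
    IsCompact K :=
  Topology.IsInducing.subtypeVal.isCompact_iff.2 h

theorem fi_comap (f : E →* G) {N : Subgroup G} (hN : N.FiniteIndex) : (N.comap f).FiniteIndex := by
  refine ⟨?_⟩
  rw [Subgroup.index_comap]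
  have h : (N.subgroupOf f.range).FiniteIndex := inferInstance
  exact h.index_ne_zero

theorem TG.ext (f : E →* G) (hf : IsProperMap f) (ht : IsTopologicalGroup E) (h : TG G r) :
    TG E r := by
  obtain ⟨-, N, hN, hT⟩ := h
  refine ⟨ht, N.comap f, fi_comap f hN, hT.comap
    ((f.comp (N.comap f).subtype).codRestrict N fun x => x.2) fun K hK => ?_⟩
  refine ⟨{x | (⟨f x.1, x.2⟩ : N) ∈ K}, isCompact_sub ?_, fun x hx => hx⟩
  have h1 : Subtype.val '' {x : N.comap f | (⟨f x.1, x.2⟩ : N) ∈ K} = f ⁻¹' (Subtype.val '' K) := by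
    ext x
    constructor
    · rintro ⟨y, hy, rfl⟩
      exact ⟨_, hy, rfl⟩
    · rintro ⟨y, hy, hyx⟩
      have hx : f x ∈ N := hyx ▸ y.2
      refine ⟨⟨x, hx⟩, ?_, rfl⟩
      have h2 : (⟨f x, hx⟩ : N) = y := Subtype.ext hyx.symm
      show (⟨f x, hx⟩ : N) ∈ K
      rw [h2]
      exact hy
  rw [h1]
  exact hf.isCompact_preimage (hK.image continuous_subtype_val)

theorem TG.prod (h : TG G r) (h' : TG H s) : TG (G × H) (r + s) := by
  obtain ⟨h1, N, hN, hT⟩ := h
  obtain ⟨h2, N', hN', hT'⟩ := h'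
  haveI := hN
  haveI := hN'
  have hfi : (N.prod N').FiniteIndex := by
    have h3 : N.prod N' = N.comap (MonoidHom.fst G H) ⊓ N'.comap (MonoidHom.snd G H) := rfl
    rw [h3]
    haveI := fi_comap (MonoidHom.fst G H) hN
    haveI := fi_comap (MonoidHom.snd G H) hN'
    infer_instance
  refine ⟨inferInstance, N.prod N', hfi, (hT.prod hT').comap
    (((MonoidHom.fst G H).comp (N.prod N').subtype).codRestrict N (fun x => x.2.1) |>.prod
      (((MonoidHom.snd G H).comp (N.prod N').subtype).codRestrict N' fun x => x.2.2))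
    fun K hK => ?_⟩
  refine ⟨(fun x : N × N' => (⟨(x.1.1, x.2.1), x.1.2, x.2.2⟩ : N.prod N')) '' K,
    hK.image ?_, fun x hx => ⟨_, hx, rfl⟩⟩
  exact ((continuous_subtype_val.comp continuous_fst).prodMk
    (continuous_subtype_val.comp continuous_snd)).subtype_mk _

theorem tg_of_tgt (h : Tgt G r) (ht : IsTopologicalGroup G) : TG G r := by
  refine ⟨ht, ⊤, inferInstance, h.comap (⊤ : Subgroup G).subtype fun K hK => ?_⟩
  refine ⟨{x | x.1 ∈ K}, isCompact_sub ?_, fun x hx => hx⟩
  have h1 : Subtype.val '' {x : (⊤ : Subgroup G) | x.1 ∈ K} = K := by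
    ext x
    constructor
    · rintro ⟨y, hy, rfl⟩
      exact hy
    · intro hx
      exact ⟨⟨x, trivial⟩, hx, rfl⟩
  rw [h1]
  exact hK

/-- The reduction for discrete subgroups of `E`. -/
theorem TG.red (h : TG E r) {Γ : Type} [Group Γ] {Γ₀ : Subgroup E} (hd : DiscreteTopology Γ₀)
    (i : Γ₀ →* Γ) (hi : Function.Injective i) (hfi : i.range.FiniteIndex) :
    ∃ (Γ₁ : Type) (_ : Group Γ₁) (N : Type) (_ : Group N) (_ : TopologicalSpace N) (φ : Γ₁ →* N)
      (i₁ : Γ₁ →* Γ), Tgt N r ∧ (∀ K : Set N, IsCompact K → {x | φ x ∈ K}.Finite) ∧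
      Function.Injective i₁ ∧ i₁.range.FiniteIndex := by
  obtain ⟨ht, N, hN, hT⟩ := h
  haveI := hN
  haveI := hfi
  refine ⟨N.subgroupOf Γ₀, inferInstance, N, inferInstance, inferInstance,
    (Γ₀.subtype.comp (N.subgroupOf Γ₀).subtype).codRestrict N fun x => x.2,
    i.comp (N.subgroupOf Γ₀).subtype, hT, fun K hK => ?_,
    hi.comp Subtype.val_injective, ?_⟩
  · have h1 := H188.LatP.fin_inter Γ₀ (hK.image continuous_subtype_val)
    refine Set.Finite.of_finite_image (f := fun x : N.subgroupOf Γ₀ => ((x : Γ₀) : E))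
      (h1.subset ?_) fun a _ b _ hab => Subtype.ext (Subtype.ext hab)
    rintro _ ⟨x, hx, rfl⟩
    exact ⟨x.1.2, _, hx, rfl⟩
  · have h2 : (i.comp (N.subgroupOf Γ₀).subtype).range = (N.subgroupOf Γ₀).map i := by
      rw [MonoidHom.range_comp, Subgroup.range_subtype]
    rw [h2]
    refine ⟨?_⟩
    rw [Subgroup.index_map]
    refine mul_ne_zero ?_ hfi.index_ne_zero
    haveI : (N.subgroupOf Γ₀).FiniteIndex := inferInstance
    exact (Subgroup.finiteIndex_of_le (le_sup_left : N.subgroupOf Γ₀ ≤ _ ⊔ i.ker)).index_ne_zero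

end tgt

/-! ### Source groups -/

/-- `F` has a proper homomorphism, with range of finite index, to a group with an open subgroup which is
a source group of rank `s`. -/
def SG (F : Type) [Group F] [TopologicalSpace F] (s : ℕ) : Prop :=
  IsTopologicalGroup F ∧ ∃ (G M : Type) (_ : Group G) (_ : TopologicalSpace G) (_ : Group M)
    (_ : TopologicalSpace M) (f : F →* G) (φ : M →* G), IsTopologicalGroup G ∧ T2Space G ∧
    LocallyCompactSpace G ∧ SecondCountableTopology G ∧ IsProperMap f ∧ f.range.FiniteIndex ∧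
    IsOpenEmbedding φ ∧ Src M s

section src
variable {E F G H : Type} [Group E] [TopologicalSpace E] [Group F] [TopologicalSpace F] [Group G]
  [TopologicalSpace G] [Group H] [TopologicalSpace H] {r s : ℕ}

theorem fi_map (f : E →* G) (hf : f.range.FiniteIndex) {N : Subgroup E} (hN : N.FiniteIndex) :
    (N.map f).FiniteIndex := by
  refine ⟨?_⟩
  rw [Subgroup.index_map]
  refine mul_ne_zero ?_ hf.index_ne_zero
  haveI := hN
  exact (Subgroup.finiteIndex_of_le (le_sup_left : N ≤ N ⊔ f.ker)).index_ne_zero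

theorem SG.ext (f : E →* F) (hf : IsProperMap f) (hfi : f.range.FiniteIndex)
    (ht : IsTopologicalGroup E) (h : SG F s) : SG E s := by
  obtain ⟨-, G, M, i1, i2, i3, i4, p, φ, h1, h2, h3, h4, h5, h6, h7, h8⟩ := h
  refine ⟨ht, G, M, i1, i2, i3, i4, p.comp f, φ, h1, h2, h3, h4, h5.comp hf, ?_, h7, h8⟩
  rw [MonoidHom.range_comp]
  exact fi_map p h6 hfi

theorem SG.prod (h : SG F r) (h' : SG H s) : SG (F × H) (r + s) := by
  obtain ⟨h0, G, M, i1, i2, i3, i4, p, φ, h1, h2, h3, h4, h5, h6, h7, h8⟩ := h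
  obtain ⟨h0', G', M', i1', i2', i3', i4', p', φ', h1', h2', h3', h4', h5', h6', h7', h8'⟩ := h'
  refine ⟨inferInstance, G × G', M × M', inferInstance, inferInstance, inferInstance,
    inferInstance, p.prodMap p', φ.prodMap φ', inferInstance, inferInstance, inferInstance,
    inferInstance, h5.prodMap h5', ?_, h7.prodMap h7', h8.prod h8'⟩
  have h9 : (p.prodMap p').range = p.range.comap (MonoidHom.fst G G') ⊓
      p'.range.comap (MonoidHom.snd G G') := by
    ext x
    constructor
    · rintro ⟨y, rfl⟩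
      exact ⟨⟨y.1, rfl⟩, ⟨y.2, rfl⟩⟩
    · rintro ⟨⟨a, ha⟩, ⟨b, hb⟩⟩
      exact ⟨(a, b), Prod.ext ha hb⟩
  rw [h9]
  haveI := fi_comap (MonoidHom.fst G G') h6
  haveI := fi_comap (MonoidHom.snd G G') h6'
  infer_instance

theorem sg_of_open (ht : IsTopologicalGroup G) (h2 : T2Space G) (φ : F →* G)
    (hφ : IsOpenEmbedding φ) (hfi : φ.range.FiniteIndex) (hs : Src F s) : SG G s := by
  haveI := hs.top
  haveI := hs.lc
  haveI := hs.sc
  have hlc : LocallyCompactSpace G := by
    obtain ⟨K, hK, hK1⟩ := exists_compact_mem_nhds (1 : F)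
    have h3 : φ '' K ∈ 𝓝 (1 : G) := by
      have := hφ.isOpenMap.image_mem_nhds hK1
      rwa [map_one] at this
    exact (hK.image hφ.continuous).locallyCompactSpace_of_mem_nhds_of_group h3
  have hsc : SecondCountableTopology G := by
    haveI := hfi
    haveI : Finite (G ⧸ φ.range) := Subgroup.finite_quotient_of_finiteIndex
    have h6 : SecondCountableTopology (Set.range φ) :=
      hφ.isEmbedding.toHomeomorph.symm.secondCountableTopology
    have h4 : ∀ q : G ⧸ φ.range, IsOpen ((Homeomorph.mulLeft q.out) '' Set.range φ) := fun q =>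
      (Homeomorph.mulLeft q.out).isOpenMap _ hφ.isOpen_range
    have h7 : ∀ q : G ⧸ φ.range,
        SecondCountableTopology ((Homeomorph.mulLeft q.out) '' Set.range φ) := fun q =>
      ((Homeomorph.mulLeft q.out).image (Set.range φ)).symm.secondCountableTopology
    refine TopologicalSpace.secondCountableTopology_of_countable_cover h4 ?_
    rw [eq_univ_iff_forall]
    intro x
    have h5 : (((x : G ⧸ φ.range).out : G) : G ⧸ φ.range) = (x : G ⧸ φ.range) := Quotient.out_eq' _
    obtain ⟨y, hy⟩ := QuotientGroup.eq.1 h5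
    refine mem_iUnion.2 ⟨(x : G ⧸ φ.range), φ y, ⟨y, rfl⟩, ?_⟩
    rw [hy]
    exact mul_inv_cancel_left _ _
  exact ⟨ht, G, F, inferInstance, inferInstance, inferInstance, inferInstance, MonoidHom.id G, φ,
    ht, h2, hlc, hsc, isProperMap_id, by
      have h8 : (MonoidHom.id G).range = ⊤ := MonoidHom.range_eq_top.2 Function.surjective_id
      rw [h8]
      infer_instance, hφ, hs⟩

end src

end Vale.Agent.P092.H465.Rk
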